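import Vale.Agent.P181.Foulkes

namespace Vale.Agent.Results.P181.QuadraticBound

open TensorProduct

/-- Foulkes' conjecture for `b ≥ (a - 1)²`, through injectivity of the Foulkes-Howe map. -/
theorem result (a b : ℕ) (hb : (a - 1) ^ 2 ≤ b)
    (V : Type) [AddCommGroup V] [Module ℂ V] [FiniteDimensional ℂ V] :
    Vale.Agent.P181.FoulkesHoweInjective a b V :=
  ⟨Vale.Agent.P181.psi a b (Module.finBasis ℂ V),
    fun v => Vale.Agent.P181.psi_rowTensor a b _ v,
    Vale.Agent.P181.psi_injective a b _ hb,
    fun g x => LinearMap.congr_fun (Vale.Agent.P181.psi_equivariant a b _ g) x⟩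

end Vale.Agent.Results.P181.QuadraticBound
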